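import Vale.Agent.P092.H45.Rp.C
import Vale.Agent.P092.UN.StR

/-!
P092 (helper45), [RANK-ALL] (T1), part 1: commuting diagonalizable elements of a Killing Lie algebra can
be replaced by commuting elements with rational eigenvalues.
-/

set_option linter.all false

open Module LieAlgebra

namespace Vale.Agent.P092.H45.Rk

open Vale.Agent.P092.H213.Rp Vale.Agent.P092.H45.Rp

section

variable {k L : Type} [Field k] [LieRing L] [LieAlgebra k L]

/-- a joint basis of eigenvectors -/
theorem exists_basis' [Module.Finite k L] {n m : ℕ} (hn : finrank k L = n) (x : Fin m → L)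
    (hc : ∀ i j, ⁅x i, x j⁆ = 0) (hd : ∀ i, Dg k (x i)) :
    ∃ (b : Basis (Fin n) k L) (l : Fin n → Fin m → k), ∀ i j, ⁅x j, b i⁆ = l i j • b i := by
  classical
  have h1 := joint (fun i => ad k L (x i)) (fun i j => by
    refine LinearMap.ext fun y => ?_
    change ⁅x i, ⁅x j, y⁆⁆ = ⁅x j, ⁅x i, y⁆⁆
    rw [leibniz_lie (x i) (x j) y, hc i j, zero_lie, zero_add]) hd
  let b0 := Basis.ofSpan h1
  haveI : Fintype ↑((linearIndepOn_empty k (id : L → L)).extend
      (Set.empty_subset {y : L | ∃ l : Fin m → k, ∀ i, (ad k L (x i)) y = l i • y})) :=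
    FiniteDimensional.fintypeBasisIndex b0
  have hcard : Fintype.card ↑((linearIndepOn_empty k (id : L → L)).extend
      (Set.empty_subset {y : L | ∃ l : Fin m → k, ∀ i, (ad k L (x i)) y = l i • y})) = n := by
    rw [← finrank_eq_card_basis b0, hn]
  let b := b0.reindex (Fintype.equivFinOfCardEq hcard)
  have h2 : ∀ i, ∃ l : Fin m → k, ∀ j, ⁅x j, b i⁆ = l j • b i := by
    intro i
    have h3 : b i ∈ {y : L | ∃ l : Fin m → k, ∀ i, (ad k L (x i)) y = l i • y} := by
      refine Basis.ofSpan_subset h1 ⟨(Fintype.equivFinOfCardEq hcard).symm i, ?_⟩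
      rw [Basis.reindex_apply]
    exact h3
  choose l' hl' using h2
  exact ⟨b, l', fun i j => hl' i j⟩

variable {n m : ℕ} {b : Basis (Fin n) k L} {x : Fin m → L} {l : Fin n → Fin m → k}

theorem repr_lie (hl : ∀ i j, ⁅x j, b i⁆ = l i j • b i) (y : L) (i : Fin n) (j : Fin m) :
    b.repr ⁅x j, y⁆ i = l i j * b.repr y i := by
  have h : (b.coord i) ∘ₗ ((ad k L (x j)) : L →ₗ[k] L) = l i j • b.coord i := by
    refine b.ext fun i' => ?_
    change b.repr ⁅x j, b i'⁆ i = l i j • b.repr (b i') i
    rw [hl, map_smul, Finsupp.smul_apply, Basis.repr_self, smul_eq_mul, smul_eq_mul]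
    by_cases hi : i' = i
    · subst hi; rfl
    · rw [Finsupp.single_eq_of_ne (Ne.symm hi), mul_zero, mul_zero]
  exact LinearMap.congr_fun h y

/-- the diagonal map on joint eigenvectors -/
theorem constr_eig [CharZero k] (hl : ∀ i j, ⁅x j, b i⁆ = l i j • b i) (φ : (Fin m → k) →+ ℚ)
    {y : L} {μ : Fin m → k} (hy : ∀ j, ⁅x j, y⁆ = μ j • y) :
    b.constr k (fun i => ((φ (l i) : ℚ) : k) • b i) y = ((φ μ : ℚ) : k) • y := by
  rw [Basis.constr_apply_fintype]
  conv_rhs => rw [← b.sum_repr y, Finset.smul_sum]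
  refine Finset.sum_congr rfl fun i _ => ?_
  rw [b.equivFun_apply]
  by_cases h0 : b.repr y i = 0
  · rw [h0, zero_smul, zero_smul, smul_zero]
  · have h1 : l i = μ := by
      funext j
      have h2 := repr_lie hl y i j
      rw [hy j, map_smul, Finsupp.smul_apply, smul_eq_mul] at h2
      exact (mul_right_cancel₀ h0 h2).symm
    rw [h1, smul_comm]

/-- additive functions of the weights are inner -/
theorem exists_inner [CharZero k] [Module.Finite k L] [IsKilling k L]
    (hl : ∀ i j, ⁅x j, b i⁆ = l i j • b i) (φ : (Fin m → k) →+ ℚ) :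
    ∃ t : L, ∀ i, ⁅t, b i⁆ = ((φ (l i) : ℚ) : k) • b i := by
  have hD : ∀ y z : L, b.constr k (fun i => ((φ (l i) : ℚ) : k) • b i) ⁅y, z⁆ =
      ⁅y, b.constr k (fun i => ((φ (l i) : ℚ) : k) • b i) z⁆ -
        ⁅z, b.constr k (fun i => ((φ (l i) : ℚ) : k) • b i) y⁆ := by
    intro y z
    have h1 : ∀ i i', b.constr k (fun i => ((φ (l i) : ℚ) : k) • b i) ⁅b i, b i'⁆ =
        ((φ (l i) + φ (l i') : ℚ) : k) • ⁅b i, b i'⁆ := by
      intro i i'
      rw [constr_eig hl φ (μ := l i + l i') (fun j => by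
        rw [leibniz_lie, hl, hl, smul_lie, lie_smul, ← add_smul, Pi.add_apply]), map_add]
    have h2 : ∀ i, b.constr k (fun i => ((φ (l i) : ℚ) : k) • b i) (b i) =
        ((φ (l i) : ℚ) : k) • b i := fun i => Basis.constr_basis _ _ _ _
    -- both sides are bilinear
    obtain ⟨D, hDD⟩ : ∃ D : L →ₗ[k] L, D = b.constr k (fun i => ((φ (l i) : ℚ) : k) • b i) :=
      ⟨_, rfl⟩
    rw [← hDD] at h1 h2 ⊢
    have h3 : ∀ i, ∀ z : L, D ⁅b i, z⁆ = ⁅b i, D z⁆ - ⁅z, D (b i)⁆ := by
      intro i z
      have e : D ∘ₗ ((ad k L (b i)) : L →ₗ[k] L) = ((ad k L (b i)) : L →ₗ[k] L) ∘ₗ D +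
          ((ad k L (D (b i))) : L →ₗ[k] L) := by
        refine b.ext fun i' => ?_
        change D ⁅b i, b i'⁆ = ⁅b i, D (b i')⁆ + ⁅D (b i), b i'⁆
        rw [h1, h2, h2, lie_smul, smul_lie, ← add_smul]
        congr 1
        push_cast
        ring
      have e1 := LinearMap.congr_fun e z
      have e2 : D ⁅b i, z⁆ = ⁅b i, D z⁆ + ⁅D (b i), z⁆ := e1
      rw [e2, ← lie_skew (D (b i)) z]
      abel
    have e : D ∘ₗ ((ad k L z) : L →ₗ[k] L) = ((ad k L z) : L →ₗ[k] L) ∘ₗ D +
        ((ad k L (D z)) : L →ₗ[k] L) := by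
      refine b.ext fun i => ?_
      change D ⁅z, b i⁆ = ⁅z, D (b i)⁆ + ⁅D z, b i⁆
      rw [← lie_skew z (b i), map_neg, h3, ← lie_skew (D z) (b i)]
      abel
    have e1 : D ⁅z, y⁆ = ⁅z, D y⁆ + ⁅D z, y⁆ := LinearMap.congr_fun e y
    rw [← lie_skew y z, map_neg, e1, ← lie_skew y (D z)]
    abel
  obtain ⟨t, ht⟩ := LieDerivation.IsKilling.exists_eq_ad (R := k) (L := L)
    (⟨b.constr k (fun i => ((φ (l i) : ℚ) : k) • b i), hD⟩ : LieDerivation k L L)
  refine ⟨t, fun i => ?_⟩
  have h1 := congrArg (fun D : LieDerivation k L L => (D : L →ₗ[k] L) (b i)) ht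
  rw [LieDerivation.coe_ad_apply_eq_ad_apply] at h1
  have h2 : ⁅t, b i⁆ = b.constr k (fun i => ((φ (l i) : ℚ) : k) • b i) (b i) := h1
  rw [h2, Basis.constr_basis]

/-- **(b)** commuting diagonalizable elements can be replaced by commuting elements with rational
eigenvalues -/
theorem cs_of_split [CharZero k] [Module.Finite k L] [IsKilling k L] {m : ℕ}
    (h : UN.Split k L m) : CS (L := L) k m := by
  classical
  obtain ⟨x, hli, hc, hb⟩ := h
  have hd : ∀ i, Dg k (x i) := by
    intro i
    obtain ⟨n', b', hb'⟩ := hb i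
    exact dg_of_basis b' hb'
  obtain ⟨b, l, hl⟩ := exists_basis' (L := L) rfl x hc hd
  have hz := cen_zero (k := k) (L := L)
  -- the weights span
  have hspan : (⊤ : Submodule k (Fin m → k)) ≤ Submodule.span k (Set.range l) := by
    by_contra hcon
    obtain ⟨v, hv⟩ : ∃ v, v ∉ Submodule.span k (Set.range l) := by
      by_contra h0
      push Not at h0
      exact hcon fun v _ => h0 v
    obtain ⟨f, hf, hfA⟩ := Submodule.exists_dual_map_eq_bot_of_notMem hv inferInstance
    refine hf ?_
    have h1 : ∀ i, f (l i) = 0 := by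
      intro i
      have : f (l i) ∈ (Submodule.span k (Set.range l)).map f :=
        ⟨_, Submodule.subset_span ⟨i, rfl⟩, rfl⟩
      rw [hfA] at this
      exact (Submodule.mem_bot k).1 this
    have h2 : ∀ w : Fin m → k, f w = ∑ j, w j * f (Pi.single j 1) := by
      intro w
      rw [LinearMap.pi_apply_eq_sum_univ f w]
      refine Finset.sum_congr rfl fun j _ => ?_
      rw [smul_eq_mul]
      congr 2
      funext i
      rw [Pi.single_apply]
      by_cases h : i = j
      · subst h; simp
      · rw [if_neg h, if_neg (Ne.symm h)]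
    have h3 : ∑ j, f (Pi.single j 1) • x j = 0 := by
      refine hz _ fun y => ?_
      rw [← b.sum_repr y, lie_sum]
      refine Finset.sum_eq_zero fun i _ => ?_
      rw [lie_smul, sum_lie]
      have h4 : ∑ j, ⁅f (Pi.single j 1) • x j, b i⁆ = f (l i) • b i := by
        rw [h2 (l i), Finset.sum_smul]
        refine Finset.sum_congr rfl fun j _ => ?_
        rw [smul_lie, hl, smul_smul, mul_comm]
      rw [h4, h1, zero_smul, smul_zero]
    have h4 := Fintype.linearIndependent_iff.1 hli _ h3
    rw [h2]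
    exact Finset.sum_eq_zero fun j _ => by rw [h4, mul_zero]
  -- a basis among the weights
  let b0 := Basis.ofSpan hspan
  haveI : Fintype ↑((linearIndepOn_empty k (id : (Fin m → k) → (Fin m → k))).extend
      (Set.empty_subset (Set.range l))) := FiniteDimensional.fintypeBasisIndex b0
  have hcard : Fintype.card ↑((linearIndepOn_empty k (id : (Fin m → k) → (Fin m → k))).extend
      (Set.empty_subset (Set.range l))) = m := by
    rw [← finrank_eq_card_basis b0, finrank_fin_fun]
  let b1 := b0.reindex (Fintype.equivFinOfCardEq hcard)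
  have hidx : ∀ a, ∃ i, l i = b1 a := by
    intro a
    refine Basis.ofSpan_subset hspan ⟨(Fintype.equivFinOfCardEq hcard).symm a, ?_⟩
    rw [Basis.reindex_apply]
  choose idx hidx using hidx
  -- the dual rational functionals
  have hQ : LinearIndependent ℚ (fun a => b1 a) :=
    LinearIndependent.restrict_scalars' ℚ b1.linearIndependent
  obtain ⟨g, hg⟩ := LinearMap.exists_leftInverse_of_injective
    (Fintype.linearCombination ℚ (fun a => b1 a)) (by
      rw [LinearMap.ker_eq_bot']
      intro c hc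
      rw [Fintype.linearCombination_apply] at hc
      funext a
      exact Fintype.linearIndependent_iff.1 hQ c hc a)
  have hga : ∀ a a', g (b1 a) a' = if a = a' then 1 else 0 := by
    intro a a'
    have h1 := LinearMap.congr_fun hg (Pi.single a 1)
    rw [LinearMap.comp_apply, Fintype.linearCombination_apply_single, one_smul] at h1
    rw [h1, LinearMap.id_apply, Pi.single_apply]
    by_cases h : a = a'
    · subst h; simp
    · rw [if_neg h, if_neg (Ne.symm h)]
  let φ : Fin m → (Fin m → k) →+ ℚ := fun a =>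
    { toFun := fun v => g v a
      map_zero' := by rw [map_zero]; rfl
      map_add' := fun v w => by rw [map_add]; rfl }
  choose t ht using fun a => exists_inner hl (φ a)
  refine ⟨t, fun a a' => ?_, fun a => dg_of_basis b fun i => ⟨_, ht a i⟩, fun a => ?_, ?_⟩
  · refine hz _ fun y => ?_
    have h1 : ((ad k L ⁅t a, t a'⁆) : L →ₗ[k] L) = 0 := by
      refine b.ext fun i => ?_
      change ⁅⁅t a, t a'⁆, b i⁆ = 0
      rw [lie_lie, ht, ht, lie_smul, lie_smul, ht, ht, smul_smul, smul_smul, mul_comm, sub_self]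
    exact LinearMap.congr_fun h1 y
  · intro μ y hy hμ
    obtain ⟨i, hi⟩ : ∃ i, b.repr y i ≠ 0 := by
      by_contra hcon
      push Not at hcon
      refine hy (b.repr.injective ?_)
      ext i
      rw [hcon, map_zero, Finsupp.zero_apply]
    refine ⟨φ a (l i), ?_⟩
    have h1 : (b.coord i) ∘ₗ ((ad k L (t a)) : L →ₗ[k] L) =
        ((φ a (l i) : ℚ) : k) • b.coord i := by
      refine b.ext fun i' => ?_
      change b.repr ⁅t a, b i'⁆ i = ((φ a (l i) : ℚ) : k) • b.repr (b i') i
      rw [ht, map_smul, Finsupp.smul_apply, Basis.repr_self, smul_eq_mul, smul_eq_mul]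
      by_cases hi : i' = i
      · subst hi; rfl
      · rw [Finsupp.single_eq_of_ne (Ne.symm hi), mul_zero, mul_zero]
    have h2 : b.repr ⁅t a, y⁆ i = ((φ a (l i) : ℚ) : k) * b.repr y i := LinearMap.congr_fun h1 y
    rw [hμ, map_smul, Finsupp.smul_apply, smul_eq_mul] at h2
    exact (mul_right_cancel₀ hi h2).symm
  · rw [Fintype.linearIndependent_iff]
    intro c hc a
    have h1 : ∑ a', c a' * ((φ a' (l (idx a)) : ℚ) : k) = 0 := by
      have h2 : ⁅∑ a', c a' • t a', b (idx a)⁆ =
          (∑ a', c a' * ((φ a' (l (idx a)) : ℚ) : k)) • b (idx a) := by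
        rw [sum_lie, Finset.sum_smul]
        exact Finset.sum_congr rfl fun a' _ => by rw [smul_lie, ht, smul_smul]
      rw [hc, zero_lie] at h2
      exact (smul_eq_zero.1 h2.symm).resolve_right (b.ne_zero _)
    rw [Finset.sum_eq_single a] at h1
    · have h2 : φ a (l (idx a)) = 1 := by
        rw [hidx]
        change g (b1 a) a = 1
        rw [hga, if_pos rfl]
      rwa [h2, Rat.cast_one, mul_one] at h1
    · intro a' _ ha'
      have h2 : φ a' (l (idx a)) = 0 := by
        rw [hidx]
        change g (b1 a) a' = 0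
        rw [hga, if_neg (Ne.symm ha')]
      rw [h2, Rat.cast_zero, mul_zero]
    · intro h; exact absurd (Finset.mem_univ _) h

/-- the converse -/
theorem split_of_cs [Module.Finite k L] {m : ℕ} (h : CS (L := L) k m) : UN.Split k L m := by
  obtain ⟨s, hc, hd, hr, hli⟩ := h
  obtain ⟨b, l, hb⟩ := exists_basis (L := L) rfl s hc hd hr
  exact ⟨s, hli, hc, fun i => ⟨_, b, fun j => ⟨_, hb j i⟩⟩⟩

end

end Vale.Agent.P092.H45.Rk
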