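import Vale.Agent.P092.H432.Trace
import Vale.Agent.P092.H377.Com

/-!
P092 (helper45), block [KER] of [RANK-ALL]: amplified representations pass to quotients by finite
normal subgroups.
-/

set_option linter.all false

open scoped InnerProductSpace
open Filter Topology ContinuousLinearMap

namespace Vale.Agent.P092.H45.Rk

open Vale.Agent.P092.H160 Vale.Agent.P092.H553 Vale.Agent.P092.H432

section ker

variable {Γ Λ M ι : Type} [Group Γ] [Group Λ] [Group M] [Fintype ι] {t : ℝ}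

/-- the sum over a coset of the kernel -/
noncomputable def S (R : Λ → (Ell2 (Γ × ι) →L[ℂ] Ell2 (Γ × ι))) (φ : Λ →* M) [Fintype φ.ker]
    (v : Λ) : Ell2 (Γ × ι) →L[ℂ] Ell2 (Γ × ι) := ∑ f : φ.ker, R (v * (f : Λ))

variable {R : Λ → (Ell2 (Γ × ι) →L[ℂ] Ell2 (Γ × ι))} (φ : Λ →* M) [Fintype φ.ker]

theorem S_mul_ker (v : Λ) (f : φ.ker) : S R φ (v * (f : Λ)) = S R φ v := by
  unfold S
  rw [← Equiv.sum_comp (Equiv.mulLeft f) (fun g : φ.ker => R (v * (g : Λ)))]
  refine Finset.sum_congr rfl fun g _ => ?_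
  simp [mul_assoc]

theorem S_eq {v w : Λ} (h : φ v = φ w) : S R φ v = S R φ w := by
  have h1 : w⁻¹ * v ∈ φ.ker := by
    rw [MonoidHom.mem_ker, map_mul, map_inv, h, inv_mul_cancel]
  have h2 := S_mul_ker (R := R) φ w ⟨_, h1⟩
  rw [← h2]
  congr 1
  simp

theorem S_mul (hR : ARep t R) (v w : Λ) :
    S R φ v * S R φ w = (Fintype.card φ.ker : ℂ) • S R φ (v * w) := by
  have h1 : S R φ v * S R φ w = ∑ f : φ.ker, S R φ (v * (f : Λ) * w) := by
    unfold S
    rw [Finset.sum_mul]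
    refine Finset.sum_congr rfl fun f _ => ?_
    rw [Finset.mul_sum]
    refine Finset.sum_congr rfl fun g _ => ?_
    rw [← hR.mul]
    congr 1
    simp only [mul_assoc]
  have h2 : ∀ f : φ.ker, S R φ (v * (f : Λ) * w) = S R φ (v * w) := by
    intro f
    refine S_eq φ ?_
    have hf : φ (f : Λ) = 1 := f.2
    rw [map_mul, map_mul, map_mul, hf, mul_one]
  rw [h1, Finset.sum_congr rfl fun f _ => h2 f, Finset.sum_const, Finset.card_univ,
    ← Nat.cast_smul_eq_nsmul ℂ]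

theorem S_adj (hR : ARep t R) (v : Λ) : adjoint (S R φ v) = S R φ v⁻¹ := by
  unfold S
  rw [map_sum]
  rw [← Equiv.sum_comp ((Equiv.inv φ.ker).trans (MulAut.conjNormal v).toEquiv)
    (fun g : φ.ker => R (v⁻¹ * (g : Λ)))]
  refine Finset.sum_congr rfl fun f _ => ?_
  rw [hR.adj]
  congr 1
  simp [mul_assoc]

theorem S_ra (hR : ARep t R) (v : Λ) : RA (S R φ v) :=
  RA.sum _ fun f _ => hR.ra _

theorem S_tr (v : Λ) : ∑ i, ⟪(ep i : Ell2 (Γ × ι)), S R φ v (ep i)⟫_ℂ =
    ∑ f : φ.ker, ∑ i, ⟪(ep i : Ell2 (Γ × ι)), R (v * (f : Λ)) (ep i)⟫_ℂ := by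
  rw [Finset.sum_comm]
  refine Finset.sum_congr rfl fun i _ => ?_
  rw [S, ContinuousLinearMap.sum_apply, inner_sum]

theorem arep_fin (hφ : Function.Surjective φ) (hR : ARep t R) :
    ARep (t / Fintype.card φ.ker)
      (fun m : M => ((Fintype.card φ.ker : ℂ)⁻¹) • S R φ (Function.surjInv hφ m)) := by
  have hs : ∀ m, φ (Function.surjInv hφ m) = m := Function.surjInv_eq hφ
  have hc : (0 : ℝ) < Fintype.card φ.ker := by
    exact_mod_cast Fintype.card_pos
  have hc' : (Fintype.card φ.ker : ℂ) ≠ 0 := by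
    exact_mod_cast hc.ne'
  have htr : ∀ m : M, ∑ i, ⟪(ep i : Ell2 (Γ × ι)),
      (((Fintype.card φ.ker : ℂ)⁻¹) • S R φ (Function.surjInv hφ m)) (ep i)⟫_ℂ =
      (Fintype.card φ.ker : ℂ)⁻¹ * ∑ f : φ.ker, ∑ i, ⟪(ep i : Ell2 (Γ × ι)),
        R (Function.surjInv hφ m * (f : Λ)) (ep i)⟫_ℂ := by
    intro m
    rw [← S_tr, Finset.mul_sum]
    refine Finset.sum_congr rfl fun i _ => ?_
    rw [ContinuousLinearMap.smul_apply, inner_smul_right]
  refine ⟨fun m => RA.smul _ (S_ra φ hR _), fun m m' => ?_, fun m => ?_, div_pos hR.pos hc, ?_,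
    fun m hm => ?_⟩
  · rw [smul_mul_smul_comm, S_mul φ hR, smul_smul,
      S_eq (R := R) φ (v := Function.surjInv hφ m * Function.surjInv hφ m')
        (w := Function.surjInv hφ (m * m')) (by rw [map_mul, hs, hs, hs])]
    congr 1
    field_simp
  · rw [map_smulₛₗ, S_adj φ hR,
      S_eq (R := R) φ (v := (Function.surjInv hφ m)⁻¹) (w := Function.surjInv hφ m⁻¹)
        (by rw [map_inv, hs, hs])]
    congr 1
    simp
  · rw [htr]
    have h1 : ∀ f : φ.ker, (f : Λ) ≠ (Function.surjInv hφ 1)⁻¹ →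
        ∑ i, ⟪(ep i : Ell2 (Γ × ι)), R (Function.surjInv hφ 1 * (f : Λ)) (ep i)⟫_ℂ = 0 := by
      intro f hf
      refine hR.tr_zero _ fun h => hf ?_
      exact eq_inv_of_mul_eq_one_right h
    have h0 : (Function.surjInv hφ 1)⁻¹ ∈ φ.ker := by
      rw [MonoidHom.mem_ker, map_inv, hs, inv_one]
    rw [Finset.sum_eq_single (⟨_, h0⟩ : φ.ker)]
    · have h2 := hR.tr_one
      simp only [mul_inv_cancel]
      rw [h2]
      push_cast
      rw [div_eq_inv_mul]
    · intro f _ hf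
      exact h1 f fun h => hf (Subtype.ext h)
    · intro h
      exact absurd (Finset.mem_univ _) h
  · rw [htr]
    rw [Finset.sum_eq_zero, mul_zero]
    intro f _
    refine hR.tr_zero _ fun h => hm ?_
    have h1 := congrArg φ h
    have hf : φ (f : Λ) = 1 := f.2
    rwa [map_mul, hs, hf, mul_one, map_one] at h1

end ker

/-- **[KER]** Amplified representations pass to images under homomorphisms with a finite kernel. -/
theorem arep_ker {Γ Λ M ι : Type} [Group Γ] [Group Λ] [Group M] [Fintype ι] {t : ℝ}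
    {R : Λ → (Ell2 (Γ × ι) →L[ℂ] Ell2 (Γ × ι))} (hR : ARep t R) (φ : Λ →* M)
    (hφ : (φ.ker : Set Λ).Finite) :
    ∃ (t' : ℝ) (R' : φ.range → (Ell2 (Γ × ι) →L[ℂ] Ell2 (Γ × ι))), ARep t' R' := by
  have hk : φ.rangeRestrict.ker = φ.ker := φ.ker_rangeRestrict
  have : Finite φ.rangeRestrict.ker := by
    rw [hk]
    exact hφ.to_subtype
  have := Fintype.ofFinite φ.rangeRestrict.ker
  exact ⟨_, _, arep_fin φ.rangeRestrict φ.rangeRestrict_surjective hR⟩

end Vale.Agent.P092.H45.Rk
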