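import Vale.Agent.P092.H944.RA4
import Vale.Agent.P092.H465.Rk.LieIn
import Vale.Agent.P092.H465.Rk.Fin

/-!
P092, project RANK-ALL (helper45): the assembly of the input `LieIn` (blocks of helper944, helper465,
helper958, helper45).
-/

set_option linter.all false

namespace Vale.Agent.P092.H45.Rk

open Vale.Agent.P092.H465.Rk

/-- **(F)**: the input `LieIn` of the class `RkL`. -/
theorem lieIn : LieIn :=
  lieIn_of (fun h h1 h2 => H944.RA.sg_ra h h1 h2) (fun h h1 h2 => H944.RA.tg_pad h h1 h2)
    (fun h => H944.RA.tg_real h) (fun h h1 => H944.RA.Split.mono h h1)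
    (fun h h1 => H944.RA.TG.mono h h1)

end Vale.Agent.P092.H45.Rk
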