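import Vale.Agent.P092.H45.Rk.Cs
import Vale.Agent.P092.H45.Rp.Main

/-!
P092 (helper45), [RANK-ALL] (T1): the number of simple roots is the split rank.
-/

set_option linter.all false

open Module LieAlgebra Matrix

namespace Vale.Agent.P092.H45.Rk

open Vale.Agent.P092.H213.Rp Vale.Agent.P092.H45.Rp

variable {k L : Type} [Field k] [CharZero k] [LieRing L] [LieAlgebra k L]

/-- the number of simple roots is the dimension of the torus -/
theorem sr_rank [Module.Finite k L] [IsKilling k L] {n r r' : ℕ} {b : Basis (Fin n) k L}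
    {s : Fin r → L} {l : Fin n → Fin r → ℚ} {α c w : Fin r' → Fin r → ℚ} {E F : Fin r' → L}
    {wt : Fin n → Fin r' → ℤ} (R : SR b s l α c w E F wt) (S : Sys b s l) : r' = r := by
  classical
  have hz := cen_zero (k := k) (L := L)
  let ev : (Fin r → ℚ) →ₗ[ℚ] (Fin r' → ℚ) := LinearMap.pi fun j =>
    { toFun := fun x => x ⬝ᵥ α j
      map_add' := fun x x' => add_dotProduct _ _ _
      map_smul' := fun q x => smul_dotProduct _ _ _ }
  have hev : ∀ x j, ev x j = x ⬝ᵥ α j := fun x j => rfl
  have h1 : Function.Injective ev := by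
    rw [← LinearMap.ker_eq_bot, LinearMap.ker_eq_bot']
    intro x hx
    refine S.sepQ hz fun i => ?_
    rw [R.wtl, dot_comb]
    refine Finset.sum_eq_zero fun a _ => ?_
    have := congrFun hx a
    rw [hev] at this
    rw [this]
    simp
  have h2 : Function.Surjective ev := by
    intro y
    refine ⟨∑ a, y a • w a, ?_⟩
    funext a'
    rw [hev, sum_dotProduct, Finset.sum_eq_single a']
    · rw [smul_dotProduct, R.dual, if_pos rfl, smul_eq_mul, mul_one]
    · intro a _ ha
      rw [smul_dotProduct, R.dual, if_neg ha, smul_eq_mul, mul_zero]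
    · intro h; exact absurd (Finset.mem_univ _) h
  have h3 := LinearMap.finrank_le_finrank_of_injective h1
  have h4 := LinearMap.finrank_le_finrank_of_surjective h2
  rw [finrank_fin_fun, finrank_fin_fun] at h3 h4
  omega

/-- maximal families are maximal tori -/
theorem sys_of_cs [Module.Finite k L] {n r : ℕ} (hn : finrank k L = n) (h : CS (L := L) k r)
    (h' : ¬ CS (L := L) k (r + 1)) :
    ∃ (b : Basis (Fin n) k L) (s : Fin r → L) (l : Fin n → Fin r → ℚ), Sys b s l := by
  classical
  obtain ⟨s, hc, hd, hra, hli⟩ := h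
  obtain ⟨b, l, hb⟩ := exists_basis hn s hc hd hra
  refine ⟨b, s, l, hb, hc, hli, fun h hdh hrh hch => ?_⟩
  by_contra hcon
  refine h' ⟨Fin.cons h s, ?_, ?_, ?_, ?_⟩
  · intro i j
    refine Fin.cases ?_ (fun i => ?_) i <;> refine Fin.cases ?_ (fun j => ?_) j
    · simp
    · simp only [Fin.cons_zero, Fin.cons_succ]
      rw [← lie_skew, hch, neg_zero]
    · simp only [Fin.cons_zero, Fin.cons_succ]
      exact hch i
    · simp only [Fin.cons_succ]
      exact hc i j
  · intro i
    refine Fin.cases ?_ (fun i => ?_) i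
    · simpa using hdh
    · simpa using hd i
  · intro i
    refine Fin.cases ?_ (fun i => ?_) i
    · simpa using hrh
    · simpa using hra i
  · rw [linearIndependent_fin_cons]
    exact ⟨hli, hcon⟩

/-- a nilpotent element gives a split element -/
theorem cs_one [Module.Finite k L] [IsKilling k L] {x : L} (hx : x ≠ 0) (hn : Nil k x) :
    CS (L := L) k 1 := by
  obtain ⟨h, y, ht, -, -, hs⟩ := jm (k := k) (L := L) 0 (by
    refine dg_of_basis (finBasis k L) fun i => ⟨0, ?_⟩
    rw [zero_lie, zero_smul]) 0 x (by rw [zero_lie, zero_smul]) hn hx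
  refine ⟨fun _ => h, fun _ _ => lie_self _, fun _ => hs.dg, fun _ => hs.rat, ?_⟩
  exact LinearIndependent.of_subsingleton 0 ht.h_ne_zero

/-- **Roots, with the right number of simple roots.** -/
theorem rt_of_cs [Module.Finite k L] [IsKilling k L] {x : L} (hx : x ≠ 0) (hn : Nil k x)
    {n r : ℕ} (hfin : finrank k L = n) (h : CS (L := L) k r) (h' : ¬ CS (L := L) k (r + 1)) :
    ∃ (b : Basis (Fin n) k L) (wt : Fin n → Fin r → ℤ) (E F H : Fin r → L),
      Rt b wt E F H := by
  have hr : 0 < r := by
    rcases Nat.eq_zero_or_pos r with h0 | h0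
    · subst h0
      exact absurd (cs_one hx hn) h'
    · exact h0
  obtain ⟨b, s, l, S⟩ := sys_of_cs hfin h h'
  obtain ⟨r', α, c, w, E, F, wt, R⟩ := S.exists_simple jm hr
  obtain rfl := sr_rank R S
  exact ⟨b, wt, E, F, _, R.rt S jm⟩

/-- **[RANK-ALL] (T1)** -/
theorem rt_of_split [Module.Finite k L] [IsKilling k L] {x : L} (hx : x ≠ 0) (hn : Nil k x)
    {n r : ℕ} (hfin : finrank k L = n) (h : UN.Split k L r) (h' : ¬ UN.Split k L (r + 1)) :
    ∃ (b : Basis (Fin n) k L) (wt : Fin n → Fin r → ℤ) (E F H : Fin r → L),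
      Rt b wt E F H :=
  rt_of_cs hx hn hfin (cs_of_split h) fun h1 => h' (split_of_cs h1)

/-- the two notions agree -/
theorem split_iff [Module.Finite k L] [IsKilling k L] {m : ℕ} :
    UN.Split k L m ↔ CS (L := L) k m := ⟨cs_of_split, split_of_cs⟩

/-- the rank is positive -/
theorem split_pos [Module.Finite k L] [IsKilling k L] {x : L} (hx : x ≠ 0) (hn : Nil k x) {r : ℕ}
    (h' : ¬ UN.Split k L (r + 1)) : 0 < r := by
  rcases Nat.eq_zero_or_pos r with h0 | h0
  · subst h0
    exact absurd (split_of_cs (cs_one hx hn)) h'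
  · exact h0

end Vale.Agent.P092.H45.Rk
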