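import Vale.Agent.P092.UN.StRk
import Vale.Agent.P092.H45.Rk.Fin

/-!
P092, project RANK-ALL (helper45): the final statement in the short letters of `UN/StRk.lean`.
-/

set_option linter.all false

open Topology

namespace Vale.Agent.P092.H45.Rk

open Vale.Agent.P092.H103.St Vale.Agent.P092.H515.St
open Vale.Agent.P092.H124.St (CommNA)

theorem isLieR_thin {k G : Type} [Field k] [TopologicalSpace k] [Group G] [TopologicalSpace G]
    {r : ℕ} (h : UN.RA.IsLieR k G r) : UN.IsLieR k G r := by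
  obtain ⟨L, i1, i2, hs, ⟨x, ψ, hx, hψ⟩, ⟨n, b, ρ, h1, h2, h3⟩, h4, h5⟩ := h
  exact ⟨L, i1, i2, n, b, ρ, hs, ⟨x, hx, ψ, hψ⟩, h1, h2, h3, h4, h5⟩

theorem rkL_thin {P : ℕ → Prop} {G : Type} [hG : Group G] [hT : TopologicalSpace G] {r : ℕ}
    (h : UN.RA.RkL P G r) : UN.RkL P G r := by
  induction h with
  | sl k hk n => exact UN.RkL.sl k hk n
  | isom k hk G q hq h =>
    obtain ⟨σ, ε, n, J₀, f, h1, h2, h3, h4, h5, h6, h7⟩ := h
    have hS : UN.RkL P f.range q := UN.RkL.isom k hk σ h1 h2 ε h3 h4 (Fin n) J₀ h5 q hq f.range h7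
    haveI : IsTopologicalGroup G := h6.toIsInducing.topologicalGroup f
    have e : IsEmbedding (f.rangeRestrict : G → f.range) := by
      have h8 : IsEmbedding ((Subtype.val : f.range → _) ∘ (f.rangeRestrict : G → f.range)) := h6
      exact (IsEmbedding.subtypeVal.of_comp_iff).1 h8
    have hs : Function.Surjective f.rangeRestrict := f.rangeRestrict_surjective
    have e2 : IsClosedEmbedding (f.rangeRestrict : G → f.range) :=
      ⟨e, by rw [hs.range_eq]; exact isClosed_univ⟩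
    refine UN.RkL.ext G f.range q f.rangeRestrict e2.isProperMap ?_ hS
    rw [MonoidHom.range_eq_top.2 hs]
    infer_instance
  | lie k hk G r h => exact UN.RkL.lie k hk G r (isLieR_thin h)
  | prod G H r s _ _ h1 h2 => exact UN.RkL.prod G H r s h1 h2
  | ext E G r f hf hr _ h => exact UN.RkL.ext E G r f hf hr h

/-- **RANK-ALL.** -/
theorem final :
    (∀ (G H : Type) [Group G] [TopologicalSpace G] [Group H] [TopologicalSpace H] (r s : ℕ),
      UN.RA.RkL (fun _ => True) G r → UN.RA.RkL (fun q => q ≠ 1) H s → r < s →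
      ∀ (Γ Λ : Type) [Group Γ] [Group Λ], DiscIn G Γ → LatIn H Λ → NoEmb Γ Λ) ∧
    (∀ m n : ℕ, 2 ≤ m → 2 ≤ n → m ≠ n →
      ∀ (Γ : Subgroup (Matrix.ProjectiveSpecialLinearGroup (Fin m) ℤ))
        (Λ : Subgroup (Matrix.ProjectiveSpecialLinearGroup (Fin n) ℤ)),
        Γ.FiniteIndex → Λ.FiniteIndex → ∀ (k : ℕ) (p : MOp k Γ), IsProj p →
        IsEmpty (CornerIso Λ Γ k p)) ∧
    (∀ (G : Type) [Group G] [TopologicalSpace G] (r : ℕ), UN.RA.RkL (fun _ => True) G r →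
      ∀ (Γ Λ : Type) [Group Γ] [Group Λ], DiscIn G Γ → CommNA r Λ → NoEmb Γ Λ) ∧
    (∀ r : ℕ,
      (∀ m : ℕ, 2 * r + 2 ≤ m → ∀ Λ : Subgroup (Matrix.SpecialLinearGroup (Fin m) ℤ),
        Λ.FiniteIndex → CommNA r Λ) ∧
      (∀ m : ℕ, 2 * r + 2 ≤ m → ∀ Λ : Subgroup (Matrix.ProjectiveSpecialLinearGroup (Fin m) ℤ),
        Λ.FiniteIndex → CommNA r Λ) ∧
      (∀ m : ℕ, r + 1 ≤ m → ∀ Λ : Subgroup (Matrix.symplecticGroup (Fin m) ℤ),
        Λ.FiniteIndex → CommNA r Λ) ∧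
      (∀ n : ℕ, 3 ≤ n → r + 4 ≤ 2 * n → ∀ Λ : Subgroup (MulAut (FreeGroup (Fin n))),
        Λ.FiniteIndex → CommNA r Λ) ∧
      (∀ (Λ : Type) [Group Λ] (φ : (Fin (r + 1) → FreeGroup (Fin 2)) →* Λ),
        Function.Injective φ → CommNA r Λ)) := by
  have h := H465.Rk.final_of lieIn
  refine ⟨fun G H _ _ _ _ r s hG hH hrs Γ Λ _ _ hΓ hΛ => ?_, h.2.1,
    fun G _ _ r hG Γ Λ _ _ hΓ hΛ => ?_, h.2.2.2⟩
  · exact h.1 G H r s (rkL_thin hG) (rkL_thin hH) hrs Γ Λ hΓ hΛ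
  · exact h.2.2.1 G r (rkL_thin hG) Γ Λ hΓ hΛ

end Vale.Agent.P092.H45.Rk
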